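import Vale.Agent.P148.R2.H910.Orth

/-!
# The finite inequality of the middle assembly (P148, row OMEGA)

In one world (a finite triangulation with all colourings): `A` a set of faces, `L σ` the local
classes inside `A`, and two further unions of classes `S₁ σ`, `S₂ σ` which together with `L σ`
contain every class meeting `A`. The missing energy of `A` is at most the energy of the WHOLE values
of the classes of `S₁`, plus `t` times the total energy, plus `1 / t` times the energy in `A` of the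
classes of `S₂`.
-/

set_option linter.unusedSectionVars false

open Function ComplexConjugate

namespace Vale.Agent.P148.R2.H566

open H258 H203 H910

variable {V D : Type*} {T : Tri V D} [Fintype D]

theorem two_re_pair_le (σ : V → Bool) (Θ Θ' : D → ℂ) {s : ℝ} (hs : 0 < s) :
    2 * (pair T σ Θ Θ').re ≤ s * tot T σ Θ + s⁻¹ * tot T σ Θ' := by
  have h1 := tot_nonneg T σ (fun d => (((Real.sqrt s : ℝ) : ℂ)) * Θ d + (-((Real.sqrt s)⁻¹ : ℝ) : ℂ) * Θ' d)
  rw [tot_add, tot_smul, tot_smul] at h1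
  have h2 : ‖((Real.sqrt s : ℝ) : ℂ)‖ ^ 2 = s := by
    rw [Complex.norm_real, Real.norm_eq_abs, sq_abs, Real.sq_sqrt hs.le]
  have h3 : ‖(-((Real.sqrt s)⁻¹ : ℝ) : ℂ)‖ ^ 2 = s⁻¹ := by
    rw [norm_neg, Complex.norm_real, Real.norm_eq_abs, sq_abs, inv_pow, Real.sq_sqrt hs.le]
  have h4 : pair T σ (fun d => ((Real.sqrt s : ℝ) : ℂ) * Θ d)
      (fun d => (-((Real.sqrt s)⁻¹ : ℝ) : ℂ) * Θ' d) = - pair T σ Θ Θ' := by
    classical
    unfold pair
    rw [← Finset.sum_neg_distrib]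
    refine Finset.sum_congr rfl fun d _ => ?_
    rw [← Finset.sum_neg_distrib]
    refine Finset.sum_congr rfl fun e _ => ?_
    by_cases h : T.Rel σ d e
    · have h5 : ((Real.sqrt s : ℝ) : ℂ) ≠ 0 := by
        rw [Complex.ofReal_ne_zero]; exact (Real.sqrt_pos.2 hs).ne'
      simp only [h, if_true, map_mul, map_neg, Complex.conj_ofReal, Complex.ofReal_inv, map_inv₀]
      field_simp
    · simp [h]
  rw [h2, h3, h4, Complex.neg_re] at h1
  linarith


/-- Two weights, split along a union of classes. -/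
theorem pair_split {σ : V → Bool} {B : D → Prop} (hB : Sat T σ B) (Θ Θ' : D → ℂ) :
    pair T σ Θ Θ' = pair T σ (rs B Θ) (rs B Θ') +
      pair T σ (rs (fun d => ¬ B d) Θ) (rs (fun d => ¬ B d) Θ') := by
  classical
  unfold pair
  rw [← Finset.sum_add_distrib]
  refine Finset.sum_congr rfl fun d _ => ?_
  rw [← Finset.sum_add_distrib]
  refine Finset.sum_congr rfl fun e _ => ?_
  by_cases h : T.Rel σ d e
  · by_cases hd : B d
    · have he : B e := hB d e h hd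
      simp [rs, h, hd, he]
    · have he : ¬ B e := fun he => hd (hB e d (T.rel_symm h) he)
      simp [rs, h, hd, he]
  · simp [h]

theorem tot_mono {σ : V → Bool} {B S : D → Prop} (hB : Sat T σ B) (Θ : D → ℂ)
    (hBS : ∀ d, B d → S d) : tot T σ (rs B Θ) ≤ tot T σ (rs S Θ) := by
  have h1 := hB.tot_split (rs S Θ)
  rw [rs_rs Θ hBS] at h1
  have h2 := tot_nonneg T σ (rs (fun d => ¬ B d) (rs S Θ))
  linarith

theorem sat_and {σ : V → Bool} {B S : D → Prop} (hB : Sat T σ B) (hS : Sat T σ S) :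
    Sat T σ (fun d => B d ∧ S d) := fun d e hr h => ⟨hB d e hr h.1, hS d e hr h.2⟩

/-- A weight which vanishes on a union of classes. -/
theorem tot_eq_zero {σ : V → Bool} {B : D → Prop} (_hB : Sat T σ B) {Φ : D → ℂ}
    (h : ∀ d, T.Mi σ d → B d → Φ d = 0) : tot T σ (rs B Φ) = 0 := by
  classical
  rw [tot_eq]
  refine Finset.sum_eq_zero fun d _ => ?_
  have : T.cls σ d (rs B Φ) = 0 := by
    unfold Tri.cls
    refine Finset.sum_eq_zero fun e _ => ?_
    split_ifs with hr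
    · unfold rs
      split_ifs with hb
      · exact h e hr.1 hb
      · rfl
    · rfl
  rw [this]; simp

variable [Fintype V]

open Classical in
theorem fin_le₀ (hP : T.Planar) {τ : ℂ} (hτ : τ ^ 2 + τ + 1 = 0) {Θ : D → ℂ}
    (h : ∀ d, Θ (T.nxt d) = τ ^ 2 * Θ d) (hg : ∀ d, ¬ T.Good d → Θ d = 0)
    {A : D → Prop} (hA : ∀ d, A (T.nxt d) ↔ A d) (L S₁ S₂ : (V → Bool) → D → Prop)
    (hL : ∀ σ, Sat T σ (L σ)) (hLA : ∀ σ d, L σ d → A d)
    (h₁ : ∀ σ, Sat T σ (S₁ σ)) (h₂ : ∀ σ, Sat T σ (S₂ σ))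
    (hc : ∀ σ d, A d → T.Mi σ d → L σ d ∨ S₁ σ d ∨ S₂ σ d) {s : ℝ} (hs : 0 < s) :
    2 ^ Fintype.card V / 4 * ∑ d, ‖rs A Θ d‖ ^ 2 - ∑ σ : V → Bool, tot T σ (rs (L σ) Θ) ≤
      ∑ σ : V → Bool, tot T σ (rs (S₁ σ) Θ) +
        s * (2 ^ Fintype.card V / 4 * ∑ d, ‖Θ d‖ ^ 2) +
        s⁻¹ * ∑ σ : V → Bool, tot T σ (rs (S₂ σ) (rs A Θ)) := by
  classical
  -- the classes which meet `A` and are not local
  set B : (V → Bool) → D → Prop := fun σ d => ¬ L σ d ∧ ∃ e, T.Rel σ e d ∧ A e with hB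
  have hBs : ∀ σ, Sat T σ (B σ) := fun σ d e hr ⟨h1, f, h2, h3⟩ =>
    ⟨fun h4 => h1 (hL σ e d (T.rel_symm hr) h4), f, T.rel_trans h2 hr, h3⟩
  have hBc : ∀ σ d e, T.Rel σ d e → A d → ¬ A e → B σ d := fun σ d e hr h1 h2 =>
    ⟨fun h3 => h2 (hLA σ e (hL σ d e hr h3)), d, T.rel_refl hr.1, h1⟩
  -- the missing energy
  set m : ℝ := ∑ σ : V → Bool, tot T σ (rs (B σ) (rs A Θ)) with hm
  have hmiss : 2 ^ Fintype.card V / 4 * ∑ d, ‖rs A Θ d‖ ^ 2 -
      ∑ σ : V → Bool, tot T σ (rs (L σ) Θ) = m := by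
    rw [← sum_tot T hP hτ (rs_rot h hA) (rs_good hg A), ← Finset.sum_sub_distrib, hm]
    refine Finset.sum_congr rfl fun σ _ => ?_
    have e1 := (hL σ).tot_split (rs A Θ)
    rw [rs_rs Θ (hLA σ)] at e1
    have e2 := (hBs σ).tot_split (rs (fun d => ¬ L σ d) (rs A Θ))
    have e3 : rs (B σ) (rs (fun d => ¬ L σ d) (rs A Θ)) = rs (B σ) (rs A Θ) := by
      funext d
      unfold rs
      by_cases hb : B σ d
      · rw [if_pos hb, if_pos hb, if_pos hb.1]
      · rw [if_neg hb, if_neg hb]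
    have e4 : tot T σ (rs (fun d => ¬ B σ d) (rs (fun d => ¬ L σ d) (rs A Θ))) = 0 := by
      refine tot_eq_zero (hBs σ).not fun d hmi hb => ?_
      unfold rs
      by_cases h1 : L σ d
      · simp [h1]
      · by_cases h2 : A d
        · exact absurd ⟨h1, d, T.rel_refl hmi, h2⟩ hb
        · simp [h2]
    rw [e3, e4] at e2
    linarith
  -- orthogonality
  have horth : ∑ σ : V → Bool, (pair T σ (rs (B σ) (rs A Θ)) (rs (B σ) Θ)).re = m := by
    have e1 : ∀ σ : V → Bool, (pair T σ (rs (B σ) (rs A Θ)) (rs (B σ) Θ)).re =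
        tot T σ (rs (B σ) (rs A Θ)) + (pair T σ (rs A Θ) (rs (fun d => ¬ A d) Θ)).re := by
      intro σ
      rw [← pair_cross T σ (hBs σ) (hBc σ) Θ, tot_eq_pair, ← Complex.add_re, ← pair_add_right]
      congr 2
      funext d
      unfold rs
      by_cases h1 : B σ d <;> by_cases h2 : A d <;> simp [h1, h2]
    rw [Finset.sum_congr rfl (fun σ _ => e1 σ), Finset.sum_add_distrib, ← Complex.re_sum,
      sum_pair_rs T hP hτ h hg hA]
    simp [hm]
  -- the two parts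
  have hkey : ∀ σ : V → Bool, 2 * (pair T σ (rs (B σ) (rs A Θ)) (rs (B σ) Θ)).re ≤
      (tot T σ (rs (B σ) (rs A Θ)) + tot T σ (rs (S₁ σ) Θ)) +
        (s * tot T σ Θ + s⁻¹ * tot T σ (rs (S₂ σ) (rs A Θ))) := by
    intro σ
    have e1 := pair_split (h₁ σ) (rs (B σ) (rs A Θ)) (rs (B σ) Θ)
    have hB1 : Sat T σ (fun d => S₁ σ d ∧ B σ d) := sat_and (h₁ σ) (hBs σ)
    have hB2 : Sat T σ (fun d => ¬ S₁ σ d ∧ B σ d) := sat_and (h₁ σ).not (hBs σ)
    have c1 : ∀ Φ : D → ℂ, rs (S₁ σ) (rs (B σ) Φ) = rs (fun d => S₁ σ d ∧ B σ d) Φ := by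
      intro Φ; funext d; unfold rs
      by_cases x : S₁ σ d <;> by_cases y : B σ d <;> simp [x, y]
    have c2 : ∀ Φ : D → ℂ, rs (fun d => ¬ S₁ σ d) (rs (B σ) Φ) =
        rs (fun d => ¬ S₁ σ d ∧ B σ d) Φ := by
      intro Φ; funext d; unfold rs
      by_cases x : S₁ σ d <;> by_cases y : B σ d <;> simp [x, y]
    rw [c1, c1, c2, c2] at e1
    have e2 := two_re_pair_le (T := T) σ (rs (fun d => S₁ σ d ∧ B σ d) (rs A Θ))
      (rs (fun d => S₁ σ d ∧ B σ d) Θ) (s := 1) one_pos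
    have e3 := two_re_pair_le (T := T) σ (rs (fun d => ¬ S₁ σ d ∧ B σ d) (rs A Θ))
      (rs (fun d => ¬ S₁ σ d ∧ B σ d) Θ) (s := s⁻¹) (inv_pos.2 hs)
    rw [inv_inv] at e3
    have f1 : tot T σ (rs (fun d => S₁ σ d ∧ B σ d) (rs A Θ)) ≤
        tot T σ (rs (B σ) (rs A Θ)) := tot_mono hB1 _ fun d hd => hd.2
    have f2 : tot T σ (rs (fun d => S₁ σ d ∧ B σ d) Θ) ≤ tot T σ (rs (S₁ σ) Θ) :=
      tot_mono hB1 _ fun d hd => hd.1
    have f3 : tot T σ (rs (fun d => ¬ S₁ σ d ∧ B σ d) Θ) ≤ tot T σ Θ := by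
      have := hB2.tot_split Θ
      have h5 := tot_nonneg T σ (rs (fun d => ¬ (¬ S₁ σ d ∧ B σ d)) Θ)
      linarith
    have f4 : tot T σ (rs (fun d => ¬ S₁ σ d ∧ B σ d) (rs A Θ)) ≤
        tot T σ (rs (S₂ σ) (rs A Θ)) := by
      have g1 : tot T σ (rs (fun d => ¬ S₁ σ d ∧ B σ d) (rs A Θ)) =
          tot T σ (rs (fun d => S₂ σ d ∧ (¬ S₁ σ d ∧ B σ d)) (rs A Θ)) := by
        have e5 := (h₂ σ).tot_split (rs (fun d => ¬ S₁ σ d ∧ B σ d) (rs A Θ))
        have e6 : rs (S₂ σ) (rs (fun d => ¬ S₁ σ d ∧ B σ d) (rs A Θ)) =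
            rs (fun d => S₂ σ d ∧ (¬ S₁ σ d ∧ B σ d)) (rs A Θ) := by
          funext d; unfold rs
          by_cases x : S₂ σ d <;> by_cases y : (¬ S₁ σ d ∧ B σ d) <;> simp [x, y]
        have e7 : tot T σ (rs (fun d => ¬ S₂ σ d) (rs (fun d => ¬ S₁ σ d ∧ B σ d) (rs A Θ))) =
            0 := by
          refine tot_eq_zero (h₂ σ).not fun d hmi hb => ?_
          unfold rs
          by_cases x : ¬ S₁ σ d ∧ B σ d
          · rw [if_pos x]
            by_cases y : A d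
            · rcases hc σ d y hmi with z | z | z
              · exact absurd z x.2.1
              · exact absurd z x.1
              · exact absurd z hb
            · rw [if_neg y]
          · rw [if_neg x]
        rw [e6, e7] at e5
        linarith
      rw [g1]
      exact tot_mono (sat_and (h₂ σ) hB2) _ fun d hd => hd.1
    have f5 : s * tot T σ (rs (fun d => ¬ S₁ σ d ∧ B σ d) Θ) ≤ s * tot T σ Θ :=
      mul_le_mul_of_nonneg_left f3 hs.le
    have f6 : s⁻¹ * tot T σ (rs (fun d => ¬ S₁ σ d ∧ B σ d) (rs A Θ)) ≤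
        s⁻¹ * tot T σ (rs (S₂ σ) (rs A Θ)) :=
      mul_le_mul_of_nonneg_left f4 (inv_nonneg.2 hs.le)
    rw [e1, Complex.add_re]
    simp only [one_mul, inv_one] at e2
    linarith
  have hsum := Finset.sum_le_sum fun (σ : V → Bool) (_ : σ ∈ Finset.univ) => hkey σ
  rw [← Finset.mul_sum, horth, Finset.sum_add_distrib, Finset.sum_add_distrib,
    Finset.sum_add_distrib, ← Finset.mul_sum, ← Finset.mul_sum, ← hm,
    sum_tot T hP hτ h hg] at hsum
  rw [hmiss]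
  linarith

/-- **The finite inequality.** -/
theorem fin_le [inst : DecidableEq V] (hP : T.Planar) {τ : ℂ} (hτ : τ ^ 2 + τ + 1 = 0) {Θ : D → ℂ}
    (h : ∀ d, Θ (T.nxt d) = τ ^ 2 * Θ d) (hg : ∀ d, ¬ T.Good d → Θ d = 0)
    {A : D → Prop} (hA : ∀ d, A (T.nxt d) ↔ A d) (L S₁ S₂ : (V → Bool) → D → Prop)
    (hL : ∀ σ, Sat T σ (L σ)) (hLA : ∀ σ d, L σ d → A d)
    (h₁ : ∀ σ, Sat T σ (S₁ σ)) (h₂ : ∀ σ, Sat T σ (S₂ σ))
    (hc : ∀ σ d, A d → T.Mi σ d → L σ d ∨ S₁ σ d ∨ S₂ σ d) {s : ℝ} (hs : 0 < s) :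
    2 ^ Fintype.card V / 4 * ∑ d, ‖rs A Θ d‖ ^ 2 - ∑ σ : V → Bool, tot T σ (rs (L σ) Θ) ≤
      ∑ σ : V → Bool, tot T σ (rs (S₁ σ) Θ) +
        s * (2 ^ Fintype.card V / 4 * ∑ d, ‖Θ d‖ ^ 2) +
        s⁻¹ * ∑ σ : V → Bool, tot T σ (rs (S₂ σ) (rs A Θ)) := by
  obtain rfl : inst = fun a b => Classical.propDecidable (a = b) := Subsingleton.elim _ _
  exact fin_le₀ hP hτ h hg hA L S₁ S₂ hL hLA h₁ h₂ hc hs

end Vale.Agent.P148.R2.H566
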