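import Vale.Agent.P148.R2.H144.T3b
import Vale.Agent.P148.R2.H566.Fin
import Vale.Agent.P148.R2.H592.Contr

/-!
# World 0 (P148, row OMEGA)

`W0` : a finite generic set of sites `X` with a triangular hull and ONE connected nonempty frozen set
`B`; all other sites are free. `w.T` is the triangulation in which `B` is contracted to the vertex
`w.O`. `world_le` is the quenched inequality: the missing energy of a square `A` whose sites are free
is at most the energy of the whole values of the classes of `S₁`, a small multiple of the total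
energy and a large multiple of the energy in `A` of the classes of `S₂`.
-/

set_option linter.unusedSectionVars false

open MeasureTheory Set Metric Function ComplexConjugate
open scoped ENNReal NNReal

namespace Vale.Agent.P148.R2.H566

open H592 H184 H203 H144 _root_.P148 _root_.P148.H729

/-- World 0. -/
structure W0 where
  X : Set ℂ
  b : ZMod 3 → ℂ
  hull : HullTri X b
  B : Set ℂ
  conn : ConnIn X B
  ne : B.Nonempty

namespace W0

variable (w : W0)

/-- The vertices: the frozen one and the free sites. -/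
abbrev V : Type := CV w.X (fun _ : Unit => w.B)

/-- The darts: (face, index). -/
abbrev D : Type := Fc w.X w.b × ZMod 3

/-- The contraction. -/
noncomputable def π : ℂ → w.V := cmap w.X (fun _ : Unit => w.B)

theorem fib : Fib w.X w.π :=
  fib_cmap (fun i j hij => absurd (Subsingleton.elim i j) hij) (fun _ => w.conn) (fun _ => w.ne)

/-- The contracted triangulation. -/
noncomputable def T : H258.Tri w.V w.D := w.hull.tri258 w.π w.fib

theorem planar : w.T.Planar := w.hull.planar258 _ _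

/-- The frozen vertex. -/
def O : w.V := Sum.inl ()

instance : Finite w.V := by
  have : Finite w.X := w.hull.fin
  infer_instance

noncomputable instance : Fintype w.V := Fintype.ofFinite _

instance : Finite (Fc w.X w.b) := w.hull.finite_Fc

noncomputable instance : Fintype w.D := Fintype.ofFinite _

/-- A free site. -/
def Free (x : ℂ) : Prop := x ∈ w.X ∧ x ∉ w.B

/-- The weight. -/
noncomputable def th (Θ : Dt → ℂ) : w.D → ℂ := wt w.hull w.π w.fib Θ

theorem faith {A : Set ℂ} (hA : ∀ x ∈ w.X, x ∈ A → x ∉ w.B) : Faith w.X A w.π := by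
  intro x hx hxA y hy hxy
  have h1 : w.π x = Sum.inr ⟨x, hx, fun _ => hA x hx hxA⟩ := cmap_of_free hx fun _ => hA x hx hxA
  have h2 : w.π y = Sum.inr ⟨x, hx, fun _ => hA x hx hxA⟩ := by rw [← hxy, h1]
  exact (eq_of_cmap h2).symm

open Classical in
/-- Mean over all colourings of the energy of the classes in `S` for the weight `Φ`. -/
noncomputable def En (S : (w.V → Bool) → w.D → Prop) (Φ : w.D → ℂ) : ℝ≥0∞ :=
  (2 ^ Fintype.card w.V)⁻¹ * ∑ σ : w.V → Bool, ENNReal.ofReal (tot w.T σ (rs (S σ) Φ))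

/-- One fourth of the sum of the squares of a weight: its mean total energy. -/
noncomputable def Qt (Φ : w.D → ℂ) : ℝ≥0∞ := ENNReal.ofReal (1 / 4 * ∑ d, ‖Φ d‖ ^ 2)

/-- The local faces of `A`. -/
def Lo (A : Set ℂ) (d : w.D) : Prop := LF w.X A (dt d)

/-- The classes on local loops in `A`. -/
def Lc (A : Set ℂ) (σ : w.V → Bool) (d : w.D) : Prop := InL w.X A (pc w.π σ) (dt d)

open Classical in
theorem sum_real {S : (w.V → Bool) → w.D → Prop} (Φ : w.D → ℂ) :
    ENNReal.ofReal ((∑ σ : w.V → Bool, tot w.T σ (rs (S σ) Φ)) / 2 ^ Fintype.card w.V) =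
      w.En S Φ := by
  unfold En
  rw [ENNReal.ofReal_div_of_pos (by positivity), ENNReal.div_eq_inv_mul,
    ENNReal.ofReal_sum_of_nonneg (fun σ _ => tot_nonneg _ σ _),
    ENNReal.ofReal_pow (by norm_num)]
  norm_num

/-- The quenched inequality of one world. -/
theorem world_le {τ : ℂ} {κ : ℝ} {Θ : Dt → ℂ} (hΘ : Wt τ κ Θ) {A : Set ℂ} {T : Set Pt} (hXA : w.X ∩ A = pts T ∩ A) (hT : OneCol T)
    (hA : ∀ x ∈ w.X, x ∈ A → x ∉ w.B) (S₁ S₂ : (w.V → Bool) → w.D → Prop)
    (h₁ : ∀ σ, Sat w.T σ (S₁ σ)) (h₂ : ∀ σ, Sat w.T σ (S₂ σ))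
    (hc : ∀ σ d, w.Lo A d → w.T.Mi σ d → w.Lc A σ d ∨ S₁ σ d ∨ S₂ σ d) {s : ℝ} (hs : 0 < s) :
    ms A Θ T ≤ 4 * (w.En S₁ (w.th Θ) + ENNReal.ofReal s * w.Qt (w.th Θ) +
      ENNReal.ofReal s⁻¹ * w.En S₂ (rs (w.Lo A) (w.th Θ))) := by
  classical
  have hF := w.faith hA
  have hτ := hΘ.tau
  have h1 := fin_le w.planar hτ (wt_rot w.hull w.π w.fib hΘ.rot) (wt_good w.hull w.π w.fib Θ)
    (A := w.Lo A) (by
      intro d
      show LF w.X A (dt (d.1, d.2 + 1)) ↔ _
      rw [dt_next, LF_rt]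
      rfl) (w.Lc A) S₁ S₂ (fun σ => sat_inL w.hull w.π w.fib A hF σ)
    (fun σ d hd => hd.lf) h₁ h₂ hc hs
  have hcard : (0 : ℝ) < 2 ^ Fintype.card w.V := by positivity
  set E1 : ℝ := ∑ d, ‖rs (w.Lo A) (w.th Θ) d‖ ^ 2 with hE1
  set E2 : ℝ := ∑ σ : w.V → Bool, tot w.T σ (rs (w.Lc A σ) (w.th Θ)) with hE2
  set E3 : ℝ := ∑ σ : w.V → Bool, tot w.T σ (rs (S₁ σ) (w.th Θ)) with hE3
  set E4 : ℝ := ∑ d, ‖w.th Θ d‖ ^ 2 with hE4
  set E5 : ℝ := ∑ σ : w.V → Bool, tot w.T σ (rs (S₂ σ) (rs (w.Lo A) (w.th Θ))) with hE5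
  set c : ℝ := 2 ^ Fintype.card w.V with hcdef
  have h1' : c / 4 * E1 - E2 ≤ E3 + s * (c / 4 * E4) + s⁻¹ * E5 := h1
  have h0 : 0 ≤ E3 := Finset.sum_nonneg fun σ _ => tot_nonneg _ σ _
  have h0' : 0 ≤ E5 := Finset.sum_nonneg fun σ _ => tot_nonneg _ σ _
  have h0'' : 0 ≤ E4 := Finset.sum_nonneg fun d _ => by positivity
  have h2 : E1 ≤ 4 * (E2 / c) + 4 * (E3 / c + s * (1 / 4 * E4) + s⁻¹ * (E5 / c)) := by
    have h3 : E1 * c ≤ 4 * (E2 + (E3 + s * (c / 4 * E4) + s⁻¹ * E5)) := by linarith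
    rw [← le_div_iff₀ hcard] at h3
    refine h3.trans (le_of_eq ?_)
    field_simp
  -- the two sides
  have e1 : EQ (pts T) A Θ = ENNReal.ofReal E1 := by
    rw [← EQ_congr hXA Θ, EQ_eq w.hull w.π w.fib A hF Θ]
    rfl
  have e2 : avg A (SC A Θ) T = ENNReal.ofReal (E2 / c) := by
    rw [← avg_SQ hXA hT hF Θ, ENNReal.ofReal_div_of_pos hcard, ENNReal.div_eq_inv_mul,
      ENNReal.ofReal_sum_of_nonneg (fun σ _ => tot_nonneg _ σ _)]
    congr 1
    · rw [hcdef, ENNReal.ofReal_pow (by norm_num)]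
      norm_num
    · exact Finset.sum_congr rfl fun σ _ => SQ_eq_tot w.hull w.π w.fib A hF Θ σ
  unfold ms
  rw [tsub_le_iff_left, e1, e2, ← sum_real, ← sum_real, Qt, ← hE3, ← hE5, ← hE4]
  have e3 : (4 : ℝ≥0∞) = ENNReal.ofReal 4 := by norm_num
  rw [e3, ← ENNReal.ofReal_mul (by norm_num), ← ENNReal.ofReal_mul hs.le,
    ← ENNReal.ofReal_mul (inv_nonneg.2 hs.le), ← ENNReal.ofReal_add (by positivity) (by positivity),
    ← ENNReal.ofReal_add (by positivity) (by positivity), ← ENNReal.ofReal_mul (by norm_num),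
    ← ENNReal.ofReal_add]
  · exact ENNReal.ofReal_le_ofReal h2
  · have : 0 ≤ E2 := Finset.sum_nonneg fun σ _ => tot_nonneg _ σ _
    positivity
  · positivity

end W0

end Vale.Agent.P148.R2.H566
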