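import Vale.Agent.P148.R2.H566.UB
import Vale.Agent.P148.R2.H566.World
import Vale.Agent.P148.R2.H144.T3h

/-!
# The middle assembly, first level (P148, row OMEGA)

`Scene` : for a fixed set of points, a finite probability space `ι` (the pairs of colourings
`(c₁, c₂)` under the law of the collar) and a world `w i` for each of its points (world 0; its
colours are the third colouring `c₃`, averaged in `En`). `S₁ i`, `S₂ i` are unions of classes of
world `i`. `meu_of_rows` : the missing energy of the unit square is small, if the mean energy of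
the whole values of the classes in `S₁` is small, the energy in the square of the classes in `S₂`
is small, and the total energy is bounded.
-/

set_option linter.unusedSectionVars false

open MeasureTheory Set Metric Filter ProbabilityTheory Topology
open scoped ENNReal NNReal

namespace Vale.Agent.P148.R2.H566

open H592 H184 H203 H144 _root_.P148 _root_.P148.H729
open Vale.Agent.P148.R2.H219 (tau)

universe u

/-- The unit square centred at the origin. -/
noncomputable def x0 : ℂ := ⟨-(1 / 2), -(1 / 2)⟩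

noncomputable def Asq : Set ℂ := sqr x0 1

/-- A finite probability space of worlds. -/
structure Scene where
  ι : Type
  fin : Fintype ι
  p : ι → ℝ≥0∞
  w : ι → W0

attribute [instance] Scene.fin

namespace Scene

/-- The scene is a scene for the points of `T`, and all points in the unit square are free. Nothing
is asked of the worlds of probability zero. -/
structure OK (s : Scene) (T : Set Pt) : Prop where
  sum_p : ∑ i, s.p i = 1
  agree : ∀ i, s.p i ≠ 0 → (s.w i).X ∩ Asq = pts T ∩ Asq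
  free : ∀ i, s.p i ≠ 0 → ∀ x ∈ (s.w i).X, x ∈ Asq → x ∉ (s.w i).B

/-- A family of unions of classes. -/
structure Cls (s : Scene) where
  S : ∀ i, ((s.w i).V → Bool) → (s.w i).D → Prop
  sat : ∀ i σ, Sat (s.w i).T σ (S i σ)

/-- The mean energy of the whole values of a family of classes. -/
noncomputable def mn (s : Scene) (S : s.Cls) (Θ : Dt → ℂ) : ℝ≥0∞ :=
  ∑ i, s.p i * (s.w i).En (S.S i) ((s.w i).th Θ)

/-- The mean energy in the unit square of a family of classes. -/
noncomputable def mnA (s : Scene) (S : s.Cls) (Θ : Dt → ℂ) : ℝ≥0∞ :=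
  ∑ i, s.p i * (s.w i).En (S.S i) (rs ((s.w i).Lo Asq) ((s.w i).th Θ))

/-- The mean total energy. -/
noncomputable def mq (s : Scene) (Θ : Dt → ℂ) : ℝ≥0∞ :=
  ∑ i, s.p i * (s.w i).Qt ((s.w i).th Θ)

/-- Every class which meets the unit square is local in it, or in `S₁`, or in `S₂`. -/
def Cover (s : Scene) (S₁ S₂ : s.Cls) : Prop :=
  ∀ i, s.p i ≠ 0 → ∀ σ d, (s.w i).Lo Asq d → (s.w i).T.Mi σ d →
    (s.w i).Lc Asq σ d ∨ S₁.S i σ d ∨ S₂.S i σ d

theorem ms_le (s : Scene) {T : Set Pt} (hs : s.OK T) (hT : OneCol T) {S₁ S₂ : s.Cls}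
    (hc : s.Cover S₁ S₂) {τ : ℂ} {κ : ℝ} {Θ : Dt → ℂ} (hΘ : Wt τ κ Θ) {t : ℝ} (ht : 0 < t) :
    ms Asq Θ T ≤ 4 * (s.mn S₁ Θ + ENNReal.ofReal t * s.mq Θ +
      ENNReal.ofReal t⁻¹ * s.mnA S₂ Θ) := by
  have h1 : ∀ i, s.p i * ms Asq Θ T ≤ s.p i * (4 * ((s.w i).En (S₁.S i) ((s.w i).th Θ) +
      ENNReal.ofReal t * (s.w i).Qt ((s.w i).th Θ) +
      ENNReal.ofReal t⁻¹ * (s.w i).En (S₂.S i) (rs ((s.w i).Lo Asq) ((s.w i).th Θ)))) := by
    intro i
    by_cases hp : s.p i = 0
    · rw [hp, zero_mul, zero_mul]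
    gcongr
    exact (s.w i).world_le hΘ (hs.agree i hp) hT (hs.free i hp) _ _ (S₁.sat i) (S₂.sat i)
      (fun σ d => hc i hp σ d) ht
  calc ms Asq Θ T = ∑ i, s.p i * ms Asq Θ T := by rw [← Finset.sum_mul, hs.sum_p, one_mul]
    _ ≤ _ := Finset.sum_le_sum fun i _ => h1 i
    _ = _ := by
      unfold mn mq mnA
      rw [Finset.mul_sum, Finset.mul_sum, ← Finset.sum_add_distrib, ← Finset.sum_add_distrib,
        Finset.mul_sum]
      refine Finset.sum_congr rfl fun i _ => ?_
      ring

end Scene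

/-- The rows at the first level. For every `ε > 0` there are scenes (depending on the points) and
families `S₁`, `S₂` such that, for all large intensities: the scene is correct with high
probability; `S₁` has mean energy at most `ε`; the total energy is at most `C` and the energy in the
square of the classes of `S₂` at most `ε`. -/
structure Rows1 (Θ : Dt → ℂ) (C ε : ℝ) where
  sc : Set Pt → Scene
  G : Set Pt → Prop
  ev : Ev.{u} G
  ok : ∀ T, G T → (sc T).OK T
  S₁ : ∀ T, (sc T).Cls
  S₂ : ∀ T, (sc T).Cls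
  cover : ∀ T, G T → (sc T).Cover (S₁ T) (S₂ T)
  tot : ∀ T, G T → (sc T).mq Θ ≤ ENNReal.ofReal C
  small : ∀ T, G T → (sc T).mnA (S₂ T) Θ ≤ ENNReal.ofReal ε
  mean : EvMean.{u} (fun T => ⨆ _ : G T, (sc T).mn (S₁ T) Θ) (ENNReal.ofReal ε)

theorem Asq_subset : Asq ⊆ closedBall 0 1 := by
  intro z hz
  have h1 : ((-(1 / 2) : ℝ) < z.re ∧ z.re < -(1 / 2) + 1) ∧
    ((-(1 / 2) : ℝ) < z.im ∧ z.im < -(1 / 2) + 1) := hz
  rw [mem_closedBall, dist_zero_right]
  refine (Complex.norm_le_abs_re_add_abs_im z).trans ?_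
  have h2 : |z.re| ≤ 1 / 2 := abs_le.2 ⟨by linarith [h1.1.1], by linarith [h1.1.2]⟩
  have h3 : |z.im| ≤ 1 / 2 := abs_le.2 ⟨by linarith [h1.2.1], by linarith [h1.2.2]⟩
  linarith

open Classical in
/-- **First level of the middle assembly.** -/
theorem meu_of_rows1 {τ : ℂ} {κ : ℝ} {Θ : Dt → ℂ} (hΘ : Wt τ κ Θ) {C : ℝ} (hC : 0 ≤ C)
    (h : ∀ ε : ℝ, 0 < ε → Nonempty (Rows1.{u} Θ C ε)) : MEU.{u} x0 Θ := by
  intro δ hδ
  set t : ℝ := δ / (16 * (C + 1)) with ht
  have ht0 : 0 < t := by positivity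
  set ε : ℝ := min (δ / 32) (t * δ / 32) with hε
  have hε0 : 0 < ε := lt_min (by positivity) (by positivity)
  have hε1 : ε ≤ δ / 32 := min_le_left _ _
  have hε2 : ε ≤ t * δ / 32 := min_le_right _ _
  obtain ⟨R⟩ := h ε hε0
  obtain ⟨K1, hK1⟩ := ev_bad R.ev hΘ Asq_subset one_pos (δ / 2) (half_pos hδ)
  obtain ⟨K2, hK2⟩ := R.mean.const_mul 4
  refine ⟨max (max K1 K2) 1, lt_of_lt_of_le one_pos (le_max_right _ _),
    fun Ω _ P _ S lam hS hl => ?_⟩
  have hl1 : K1 ≤ lam := ((le_max_left _ _).trans (le_max_left _ _)).trans hl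
  have hl2 : K2 ≤ lam := ((le_max_right _ _).trans (le_max_left _ _)).trans hl
  have h1 := (hK1 Ω P S lam hS hl1).add (hK2 Ω P S lam hS hl2)
  have h2 : UB P (fun _ => ENNReal.ofReal (4 * (t * C + t⁻¹ * ε)))
    (ENNReal.ofReal (4 * (t * C + t⁻¹ * ε))) := UB.const (Eventually.of_forall fun _ => le_rfl)
  have h3 := h1.add h2
  have h4 : UB P (fun ω => ms Asq Θ (S ω)) (ENNReal.ofReal δ) := by
    refine h3.mono (Eventually.of_forall fun ω => ?_) ?_
    · by_cases hG : R.G (S ω)
      · have h5 := (R.sc (S ω)).ms_le (R.ok _ hG) (hS.oneColour ω) (R.cover _ hG) hΘ ht0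
        refine h5.trans ?_
        simp only [if_pos hG, zero_add, iSup_pos hG]
        rw [mul_add, mul_add, add_assoc]
        refine add_le_add le_rfl ?_
        rw [← mul_add]
        have e4 : (4 : ℝ≥0∞) = ENNReal.ofReal 4 := by norm_num
        rw [ENNReal.ofReal_mul (by norm_num), ← e4,
          ENNReal.ofReal_add (by positivity) (by positivity), ENNReal.ofReal_mul ht0.le,
          ENNReal.ofReal_mul (inv_nonneg.2 ht0.le)]
        gcongr
        · exact R.tot _ hG
        · exact R.small _ hG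
      · simp only [if_neg hG]
        refine le_add_right (le_add_right ?_)
        exact tsub_le_self
    · have e4 : (4 : ℝ≥0∞) = ENNReal.ofReal 4 := by norm_num
      rw [e4, ← ENNReal.ofReal_mul (by norm_num),
        ← ENNReal.ofReal_add (by positivity) (by positivity),
        ← ENNReal.ofReal_add (by positivity) (by positivity)]
      apply ENNReal.ofReal_le_ofReal
      have h6 : t * C ≤ δ / 16 := by
        rw [ht, div_mul_eq_mul_div, div_le_div_iff₀ (by positivity) (by norm_num)]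
        nlinarith
      have h7 : t⁻¹ * ε ≤ δ / 32 := by
        rw [inv_mul_le_iff₀ ht0]
        linarith
      linarith
  have h5 := lintegral_ms (P := P) hS (isOpen_sqr x0 1) (isBounded_sqr x0 1) hΘ.tau hΘ.rot
    hΘ.meas
  have h6 := h4.lintegral_le
  have h7 : ∫⁻ ω, EQ (pts (S ω)) (sqr x0 1) Θ ∂P =
      4 * ∫⁻ ω, SC (sqr x0 1) Θ (S ω) ∂P + ∫⁻ ω, ms Asq Θ (S ω) ∂P := by
    rw [← h5, add_comm]
    rfl
  rw [h7]
  gcongr

end Vale.Agent.P148.R2.H566
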