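import Vale.Agent.P148.R2.H566.Omega2
import Vale.Agent.P148.R2.H609.DB3

/-!
# The middle assembly, third level (P148, row OMEGA)

The row of the captured classes. `cap J σ d` : `d` starts an excursion from the frozen vertex which
faces the arc `J`, does not start in it and meets the unit square. `hv J σ d` : the value of the
chain which closes this excursion to a class of the plane. The energy of the captured classes is at
most twice the energy of the closed classes (row door) plus twice the sum of `‖hv‖²`, and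
`‖hv‖² ≤ 2 mx + 2 wn` (full sections, windows).
-/

set_option linter.unusedSectionVars false

open MeasureTheory Set Metric Filter ProbabilityTheory Topology
open scoped ENNReal NNReal

namespace Vale.Agent.P148.R2.H566

open H592 H184 H203 H144 H400 _root_.P148 _root_.P148.H729
open Vale.Agent.P148.R2.H219 (tau)

universe u

namespace W0

variable (w : W0)

/-- The excursion of `d` is captured by the arc `J` and meets the unit square. -/
def cap (J : Set w.D) (σ : w.V → Bool) (d : w.D) : Prop :=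
  w.T.src d = w.O ∧ Start w.T σ d ∧ Facing w.T J σ d ∧ d ∉ J ∧ w.Mt Asq σ d

open Classical in
/-- Mean over the colourings of the sum over the captured excursions of a function. -/
noncomputable def msum (J : Set w.D) (F : (w.V → Bool) → w.D → ℝ≥0∞) : ℝ≥0∞ :=
  (2 ^ Fintype.card w.V)⁻¹ * ∑ σ : w.V → Bool, ∑ d, if w.cap J σ d then F σ d else 0

variable {w}

theorem msum_mono {J : Set w.D} {F F' : (w.V → Bool) → w.D → ℝ≥0∞}
    (h : ∀ σ d, w.cap J σ d → F σ d ≤ F' σ d) : w.msum J F ≤ w.msum J F' := by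
  classical
  unfold msum
  gcongr with σ _ d _
  split_ifs with hc
  · exact h σ d hc
  · exact le_rfl

theorem msum_add {J : Set w.D} (F F' : (w.V → Bool) → w.D → ℝ≥0∞) :
    w.msum J (fun σ d => F σ d + F' σ d) = w.msum J F + w.msum J F' := by
  classical
  unfold msum
  rw [← mul_add, ← Finset.sum_add_distrib]
  congr 1
  refine Finset.sum_congr rfl fun σ _ => ?_
  rw [← Finset.sum_add_distrib]
  refine Finset.sum_congr rfl fun d _ => ?_
  split_ifs <;> simp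

theorem msum_const_mul {J : Set w.D} (c : ℝ≥0∞) (F : (w.V → Bool) → w.D → ℝ≥0∞) :
    w.msum J (fun σ d => c * F σ d) = c * w.msum J F := by
  classical
  unfold msum
  have h1 : (∑ σ : w.V → Bool, ∑ d, if w.cap J σ d then c * F σ d else 0) =
      c * ∑ σ : w.V → Bool, ∑ d, if w.cap J σ d then F σ d else 0 := by
    rw [Finset.mul_sum]
    refine Finset.sum_congr rfl fun σ _ => ?_
    rw [Finset.mul_sum]
    refine Finset.sum_congr rfl fun d _ => ?_
    split_ifs <;> simp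
  convert congrArg (fun x => (2 ^ Fintype.card w.V : ℝ≥0∞)⁻¹ * x) h1 using 1
  rw [mul_left_comm]

/-- The energy of the captured classes is at most the sum over the captured excursions. -/
theorem en_capC_le {κ : Type*} [Fintype κ] (Arc : κ → Set w.D) (Φ : w.D → ℂ) :
    w.En (w.CapC Asq Arc) Φ ≤
      ∑ J, w.msum (Arc J) (fun σ d => ENNReal.ofReal (‖w.T.cls σ d Φ‖ ^ 2)) := by
  classical
  have h1 : ∀ σ : w.V → Bool, ENNReal.ofReal (tot w.T σ (rs (w.CapC Asq Arc σ) Φ)) ≤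
      ∑ J, ∑ d, if w.cap (Arc J) σ d then ENNReal.ofReal (‖w.T.cls σ d Φ‖ ^ 2) else 0 := by
    intro σ
    set F : Finset w.D := Finset.univ.filter fun d => ∃ J, w.cap (Arc J) σ d with hF
    have h2 := H609.tot_rs_le w.T (σ := σ) (S := w.CapC Asq Arc σ) capC_sat F (by
      rintro e - ⟨hM, d, h3, h4, h5, J, h6, h7⟩
      refine ⟨d, ?_, h3⟩
      rw [hF, Finset.mem_filter]
      exact ⟨Finset.mem_univ _, J, h4, h5, h6, h7, mt_sat e d h3 hM⟩) Φ
    refine (ENNReal.ofReal_le_ofReal h2).trans ?_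
    rw [ENNReal.ofReal_sum_of_nonneg (fun d _ => by positivity), Finset.sum_comm, hF,
      Finset.sum_filter]
    refine Finset.sum_le_sum fun d _ => ?_
    split_ifs with hd
    · obtain ⟨J, hJ⟩ := hd
      refine le_trans ?_ (Finset.single_le_sum (f := fun J => if w.cap (Arc J) σ d then
        ENNReal.ofReal (‖w.T.cls σ d Φ‖ ^ 2) else 0) (fun _ _ => bot_le) (Finset.mem_univ J))
      rw [if_pos hJ]
    · exact bot_le
  unfold En msum
  rw [← Finset.mul_sum]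
  gcongr
  rw [Finset.sum_comm]
  refine Finset.sum_le_sum fun σ _ => ?_
  convert h1 σ

theorem sq_le {a b : ℂ} : ENNReal.ofReal (‖a‖ ^ 2) ≤
    2 * ENNReal.ofReal (‖a + b‖ ^ 2) + 2 * ENNReal.ofReal (‖b‖ ^ 2) := by
  have e2 : (2 : ℝ≥0∞) = ENNReal.ofReal 2 := by norm_num
  rw [e2, ← ENNReal.ofReal_mul (by norm_num), ← ENNReal.ofReal_mul (by norm_num),
    ← ENNReal.ofReal_add (by positivity) (by positivity)]
  apply ENNReal.ofReal_le_ofReal
  have h1 : ‖a‖ ≤ ‖a + b‖ + ‖b‖ := by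
    calc ‖a‖ = ‖a + b - b‖ := by rw [add_sub_cancel_right]
      _ ≤ _ := norm_sub_le _ _
  have h2 := norm_nonneg a
  nlinarith [sq_nonneg (‖a + b‖ - ‖b‖)]

/-- Closed classes and closing chains. -/
theorem msum_cls_le {J : Set w.D} (hv : (w.V → Bool) → w.D → ℂ) (mx : ℝ≥0∞)
    (wn : (w.V → Bool) → w.D → ℝ≥0∞)
    (h : ∀ σ d, w.cap J σ d → ENNReal.ofReal (‖hv σ d‖ ^ 2) ≤ 2 * mx + 2 * wn σ d)
    (Φ : w.D → ℂ) :
    w.msum J (fun σ d => ENNReal.ofReal (‖w.T.cls σ d Φ‖ ^ 2)) ≤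
      2 * w.msum J (fun σ d => ENNReal.ofReal (‖w.T.cls σ d Φ + hv σ d‖ ^ 2)) +
        4 * (mx * w.msum J (fun _ _ => 1)) + 4 * w.msum J wn := by
  have h1 : w.msum J (fun σ d => ENNReal.ofReal (‖w.T.cls σ d Φ‖ ^ 2)) ≤
      w.msum J (fun σ d => (2 * ENNReal.ofReal (‖w.T.cls σ d Φ + hv σ d‖ ^ 2) +
        4 * (mx * 1)) + 4 * wn σ d) := by
    refine msum_mono fun σ d hd => ?_
    refine (sq_le (b := hv σ d)).trans ?_
    rw [add_assoc]
    gcongr
    refine (mul_le_mul' (le_refl 2) (h σ d hd)).trans (le_of_eq ?_)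
    ring
  refine h1.trans (le_of_eq ?_)
  rw [msum_add, msum_add, msum_const_mul, msum_const_mul, msum_const_mul, msum_const_mul]

end W0

namespace AScene

variable {κ : Type} [Fintype κ] (s : AScene κ)

/-- Mean of the sum over the captured excursions of all arcs. -/
noncomputable def cm (F : ∀ i, κ → ((s.w i).V → Bool) → (s.w i).D → ℝ≥0∞) : ℝ≥0∞ :=
  ∑ i, s.p i * ∑ J, (s.w i).msum (s.Arc i J) (F i J)

theorem ccl_le (Θ : Dt → ℂ) (hv : ∀ i, κ → ((s.w i).V → Bool) → (s.w i).D → ℂ)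
    (mx : s.ι → ℝ≥0∞) (wn : ∀ i, κ → ((s.w i).V → Bool) → (s.w i).D → ℝ≥0∞)
    (h : ∀ i, s.p i ≠ 0 → ∀ J σ d, (s.w i).cap (s.Arc i J) σ d →
      ENNReal.ofReal (‖hv i J σ d‖ ^ 2) ≤ 2 * mx i + 2 * wn i J σ d) {C : ℝ≥0∞}
    (hC : ∀ i, s.p i ≠ 0 → ∀ J, (s.w i).msum (s.Arc i J) (fun _ _ => 1) ≤ C) :
    s.mn s.ccl Θ ≤ 2 * s.cm (fun i J σ d =>
        ENNReal.ofReal (‖(s.w i).T.cls σ d ((s.w i).th Θ) + hv i J σ d‖ ^ 2)) +
      4 * Fintype.card κ * C * ∑ i, s.p i * mx i + 4 * s.cm wn := by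
  have h1 : ∀ i, s.p i * (s.w i).En (s.ccl.S i) ((s.w i).th Θ) ≤
      2 * (s.p i * ∑ J, (s.w i).msum (s.Arc i J) (fun σ d =>
        ENNReal.ofReal (‖(s.w i).T.cls σ d ((s.w i).th Θ) + hv i J σ d‖ ^ 2))) +
      4 * Fintype.card κ * C * (s.p i * mx i) +
      4 * (s.p i * ∑ J, (s.w i).msum (s.Arc i J) (wn i J)) := by
    intro i
    by_cases hp : s.p i = 0
    · simp [hp]
    have h2 := W0.en_capC_le (s.Arc i) ((s.w i).th Θ)
    have h3 : ∑ J, (s.w i).msum (s.Arc i J)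
        (fun σ d => ENNReal.ofReal (‖(s.w i).T.cls σ d ((s.w i).th Θ)‖ ^ 2)) ≤
        ∑ J, (2 * (s.w i).msum (s.Arc i J) (fun σ d =>
        ENNReal.ofReal (‖(s.w i).T.cls σ d ((s.w i).th Θ) + hv i J σ d‖ ^ 2)) +
        4 * (mx i * C) + 4 * (s.w i).msum (s.Arc i J) (wn i J)) := by
      refine Finset.sum_le_sum fun J _ => ?_
      refine (W0.msum_cls_le (hv i J) (mx i) (wn i J) (h i hp J) _).trans ?_
      gcongr
      exact hC i hp J
    refine (mul_le_mul' (le_refl (s.p i)) (h2.trans h3)).trans (le_of_eq ?_)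
    rw [Finset.sum_add_distrib, Finset.sum_add_distrib, Finset.sum_const, Finset.card_univ,
      nsmul_eq_mul, ← Finset.mul_sum, ← Finset.mul_sum]
    ring
  refine (Finset.sum_le_sum fun i _ => h1 i).trans (le_of_eq ?_)
  unfold cm
  rw [Finset.sum_add_distrib, Finset.sum_add_distrib, ← Finset.mul_sum, ← Finset.mul_sum,
    ← Finset.mul_sum]

end AScene

/-- **Third level of the middle assembly.** -/
theorem meu_of_rows3 {τ : ℂ} {κ₀ : ℝ} {Θ : Dt → ℂ} (hΘ : Wt τ κ₀ Θ)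
    (κ : ℕ → Type) [∀ N, Fintype (κ N)] (sc : ∀ N : ℕ, ℕ → Set Pt → AScene (κ N))
    (ok : ∀ N, ∀ᶠ M in atTop, Ev.{u} fun T => (sc N M T).toScene.OK T)
    {C : ℝ} (hC : 0 ≤ C)
    (tot : ∀ N, ∀ᶠ M in atTop, Ev.{u} fun T => (sc N M T).mq Θ ≤ ENNReal.ofReal C)
    (sf : ∀ ε : ℝ, 0 < ε → ∃ N, ∀ᶠ M in atTop, Ev.{u} fun T =>
      (sc N M T).mnA (sc N M T).scl Θ ≤ ENNReal.ofReal ε)
    (pc : ∀ N, ∀ᶠ M in atTop, ∃ G : Set Pt → Prop, Ev.{u} G ∧
      EvZero.{u} fun T => ⨆ _ : G T, (sc N M T).mn (sc N M T).pcl Θ)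
    (hv : ∀ N M T i, κ N → (((sc N M T).w i).V → Bool) → ((sc N M T).w i).D → ℂ)
    (mx : ∀ N M T, (sc N M T).ι → ℝ≥0∞)
    (wn : ∀ N M T i, κ N → (((sc N M T).w i).V → Bool) → ((sc N M T).w i).D → ℝ≥0∞)
    (val : ∀ N, ∀ᶠ M in atTop, Ev.{u} fun T => ∀ i, (sc N M T).p i ≠ 0 → ∀ J σ d,
      ((sc N M T).w i).cap ((sc N M T).Arc i J) σ d →
      ENNReal.ofReal (‖hv N M T i J σ d‖ ^ 2) ≤ 2 * mx N M T i + 2 * wn N M T i J σ d)
    (cnt : ∀ N, ∃ C : ℝ≥0, ∀ᶠ M in atTop, Ev.{u} fun T => ∀ i, (sc N M T).p i ≠ 0 → ∀ J,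
      ((sc N M T).w i).msum ((sc N M T).Arc i J) (fun _ _ => 1) ≤ C)
    (door : ∀ N, ∀ᶠ M in atTop, ∃ G : Set Pt → Prop, Ev.{u} G ∧
      EvZero.{u} fun T => ⨆ _ : G T, (sc N M T).cm (fun i J σ d =>
        ENNReal.ofReal (‖((sc N M T).w i).T.cls σ d (((sc N M T).w i).th Θ) +
          hv N M T i J σ d‖ ^ 2)))
    (lln : ∀ N, ∀ ε : ℝ, 0 < ε → ∀ᶠ M in atTop, ∃ G : Set Pt → Prop, Ev.{u} G ∧
      EvMean.{u} (fun T => ⨆ _ : G T, ∑ i, (sc N M T).p i * mx N M T i) (ENNReal.ofReal ε))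
    (win : ∀ N, ∀ ε : ℝ, 0 < ε → ∀ᶠ M in atTop, ∃ G : Set Pt → Prop, Ev.{u} G ∧
      EvMean.{u} (fun T => ⨆ _ : G T, (sc N M T).cm (wn N M T)) (ENNReal.ofReal ε)) :
    MEU.{u} x0 Θ := by
  refine meu_of_rows2 hΘ κ sc ok hC tot sf pc fun ε hε N => ?_
  obtain ⟨C', hC'⟩ := cnt N
  set c : ℝ := 4 * Fintype.card (κ N) * C' with hc
  have hc0 : 0 ≤ c := by positivity
  filter_upwards [val N, hC', door N, lln N (ε / (3 * (c + 1))) (by positivity),
    win N (ε / 12) (by positivity)] with M h1 h2 ⟨G3, h3, h3'⟩ ⟨G4, h4, h4'⟩ ⟨G5, h5, h5'⟩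
  refine ⟨_, h1.and (h2.and (h3.and (h4.and h5))), ?_⟩
  have h6 := (((h3' (ε / 6) (by positivity)).const_mul 2).add (h4'.const_mul
    (ENNReal.ofReal c))).add (h5'.const_mul 4)
  refine h6.mono (fun T => ?_) ?_
  · refine iSup_le fun hT => ?_
    obtain ⟨g1, g2, g3, g4, g5⟩ := hT
    rw [iSup_pos g3, iSup_pos g4, iSup_pos g5]
    refine ((sc N M T).ccl_le Θ (hv N M T) (mx N M T) (wn N M T) g1 g2).trans (le_of_eq ?_)
    congr 3
    rw [hc, ENNReal.ofReal_mul (by positivity), ENNReal.ofReal_mul (by norm_num)]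
    simp
  · have e2 : (2 : ℝ≥0∞) = ENNReal.ofReal 2 := by norm_num
    have e4 : (4 : ℝ≥0∞) = ENNReal.ofReal 4 := by norm_num
    rw [e2, e4, ← ENNReal.ofReal_mul (by norm_num), ← ENNReal.ofReal_mul hc0,
      ← ENNReal.ofReal_mul (by norm_num), ← ENNReal.ofReal_add (by positivity) (by positivity),
      ← ENNReal.ofReal_add (by positivity) (by positivity)]
    apply ENNReal.ofReal_le_ofReal
    have h7 : c * (ε / (3 * (c + 1))) ≤ ε / 3 := by
      rw [mul_div_assoc', div_le_div_iff₀ (by positivity) (by norm_num)]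
      nlinarith
    linarith

end Vale.Agent.P148.R2.H566
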