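import Vale.Agent.P148.R2.H291.Tot
import Vale.Agent.P148.R2.H144.T3b

/-!
# Upper means and events of high probability (P148, row OMEGA)

`UB P f c`: the function `f` (perhaps not measurable) has a measurable majorant of mean at most `c`.
`Ev A`: the event `A` of a configuration has probability tending to one as the intensity tends to
infinity. `EvMean F c`: the upper mean of `F` is at most `c` for all large intensities.
-/

set_option linter.unusedSectionVars false

open MeasureTheory Set Metric Filter ProbabilityTheory Topology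
open scoped ENNReal NNReal

namespace Vale.Agent.P148.R2.H566

open H184 H144 _root_.P148 _root_.P148.H729

universe u

/-- `f` has a measurable majorant of mean at most `c`. -/
def UB {Ω : Type*} [MeasurableSpace Ω] (P : Measure Ω) (f : Ω → ℝ≥0∞) (c : ℝ≥0∞) : Prop :=
  ∃ g : Ω → ℝ≥0∞, Measurable g ∧ (∀ᵐ ω ∂P, f ω ≤ g ω) ∧ ∫⁻ ω, g ω ∂P ≤ c

section
variable {Ω : Type*} [MeasurableSpace Ω] {P : Measure Ω} {f f' : Ω → ℝ≥0∞} {c c' : ℝ≥0∞}

theorem UB.mono (h : UB P f c) (hf : ∀ᵐ ω ∂P, f' ω ≤ f ω) (hc : c ≤ c') : UB P f' c' := by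
  obtain ⟨g, h1, h2, h3⟩ := h
  refine ⟨g, h1, ?_, h3.trans hc⟩
  filter_upwards [h2, hf] with ω h4 h5
  exact h5.trans h4

theorem UB.le (h : UB P f c) (hf : ∀ ω, f' ω ≤ f ω) : UB P f' c :=
  h.mono (Eventually.of_forall hf) le_rfl

theorem UB.add (h : UB P f c) (h' : UB P f' c') : UB P (fun ω => f ω + f' ω) (c + c') := by
  obtain ⟨g, h1, h2, h3⟩ := h
  obtain ⟨g', h1', h2', h3'⟩ := h'
  refine ⟨fun ω => g ω + g' ω, h1.add h1', ?_, ?_⟩
  · filter_upwards [h2, h2'] with ω h4 h5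
    exact add_le_add h4 h5
  · rw [lintegral_add_left h1]
    exact add_le_add h3 h3'

theorem UB.const_mul (h : UB P f c) (k : ℝ≥0∞) : UB P (fun ω => k * f ω) (k * c) := by
  obtain ⟨g, h1, h2, h3⟩ := h
  refine ⟨fun ω => k * g ω, h1.const_mul k, ?_, ?_⟩
  · filter_upwards [h2] with ω h4
    gcongr
  · rw [lintegral_const_mul _ h1]
    gcongr

theorem UB.sum {ι : Type*} (s : Finset ι) {F : ι → Ω → ℝ≥0∞} {C : ι → ℝ≥0∞}
    (h : ∀ i ∈ s, UB P (F i) (C i)) : UB P (fun ω => ∑ i ∈ s, F i ω) (∑ i ∈ s, C i) := by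
  classical
  induction s using Finset.induction_on with
  | empty => exact ⟨fun _ => 0, measurable_const, by simp, by simp⟩
  | insert i s hi ih =>
    have h1 := (h i (Finset.mem_insert_self i s)).add
      (ih fun j hj => h j (Finset.mem_insert_of_mem hj))
    refine h1.mono (Eventually.of_forall fun ω => ?_) ?_
    · rw [Finset.sum_insert hi]
    · rw [Finset.sum_insert hi]

theorem UB.lintegral_le (h : UB P f c) : ∫⁻ ω, f ω ∂P ≤ c := by
  obtain ⟨g, h1, h2, h3⟩ := h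
  exact (lintegral_mono_ae h2).trans h3

theorem UB.of_measurable (hf : Measurable f) (h : ∫⁻ ω, f ω ∂P ≤ c) : UB P f c :=
  ⟨f, hf, Eventually.of_forall fun _ => le_rfl, h⟩

theorem UB.const [IsProbabilityMeasure P] (h : ∀ᵐ ω ∂P, f ω ≤ c) : UB P f c :=
  ⟨fun _ => c, measurable_const, h, by simp⟩

end

/-- The event `A` of a configuration has probability tending to one. -/
def Ev (A : Set Pt → Prop) : Prop :=
  ∀ δ : ℝ, 0 < δ → ∃ K : ℝ, ∀ (Ω : Type u) [MeasurableSpace Ω] (P : Measure Ω)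
    [IsProbabilityMeasure P] (S : Ω → Set Pt) (lam : ℝ≥0), IsColouredPoisson P S lam →
    K ≤ lam → P {ω | ¬ A (S ω)} ≤ ENNReal.ofReal δ

/-- The upper mean of `F` is at most `c` for all large intensities. -/
def EvMean (F : Set Pt → ℝ≥0∞) (c : ℝ≥0∞) : Prop :=
  ∃ K : ℝ, ∀ (Ω : Type u) [MeasurableSpace Ω] (P : Measure Ω)
    [IsProbabilityMeasure P] (S : Ω → Set Pt) (lam : ℝ≥0), IsColouredPoisson P S lam →
    K ≤ lam → UB P (fun ω => F (S ω)) c

/-- The upper mean of `F` tends to zero. -/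
def EvZero (F : Set Pt → ℝ≥0∞) : Prop := ∀ ε : ℝ, 0 < ε → EvMean.{u} F (ENNReal.ofReal ε)

section
variable {A A' : Set Pt → Prop} {F F' : Set Pt → ℝ≥0∞} {c c' : ℝ≥0∞}

theorem Ev.mono (h : Ev.{u} A) (hA : ∀ T, A T → A' T) : Ev.{u} A' := by
  intro δ hδ
  obtain ⟨K, hK⟩ := h δ hδ
  refine ⟨K, fun Ω _ P _ S lam hS hl => (measure_mono ?_).trans (hK Ω P S lam hS hl)⟩
  exact fun ω hω h1 => hω (hA _ h1)

theorem Ev.and (h : Ev.{u} A) (h' : Ev.{u} A') : Ev.{u} (fun T => A T ∧ A' T) := by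
  intro δ hδ
  obtain ⟨K, hK⟩ := h (δ / 2) (half_pos hδ)
  obtain ⟨K', hK'⟩ := h' (δ / 2) (half_pos hδ)
  refine ⟨max K K', fun Ω _ P _ S lam hS hl => ?_⟩
  have e : {ω | ¬ (A (S ω) ∧ A' (S ω))} ⊆ {ω | ¬ A (S ω)} ∪ {ω | ¬ A' (S ω)} := by
    intro ω hω
    by_cases h1 : A (S ω)
    · exact Or.inr fun h2 => hω ⟨h1, h2⟩
    · exact Or.inl h1
  refine (measure_mono e).trans ((measure_union_le _ _).trans ?_)
  refine (add_le_add (hK Ω P S lam hS ((le_max_left _ _).trans hl))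
    (hK' Ω P S lam hS ((le_max_right _ _).trans hl))).trans (le_of_eq ?_)
  rw [← ENNReal.ofReal_add (by positivity) (by positivity), add_halves]

theorem Ev.of_forall (h : ∀ T, A T) : Ev.{u} A :=
  fun δ _ => ⟨0, fun Ω _ P _ S lam _ _ => by simp [h]⟩

theorem EvMean.mono (h : EvMean.{u} F c) (hF : ∀ T, F' T ≤ F T) (hc : c ≤ c') :
    EvMean.{u} F' c' := by
  obtain ⟨K, hK⟩ := h
  exact ⟨K, fun Ω _ P _ S lam hS hl =>
    (hK Ω P S lam hS hl).mono (Eventually.of_forall fun ω => hF _) hc⟩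

theorem EvMean.add (h : EvMean.{u} F c) (h' : EvMean.{u} F' c') :
    EvMean.{u} (fun T => F T + F' T) (c + c') := by
  obtain ⟨K, hK⟩ := h
  obtain ⟨K', hK'⟩ := h'
  exact ⟨max K K', fun Ω _ P _ S lam hS hl => (hK Ω P S lam hS ((le_max_left _ _).trans hl)).add
    (hK' Ω P S lam hS ((le_max_right _ _).trans hl))⟩

theorem EvMean.const_mul (h : EvMean.{u} F c) (k : ℝ≥0∞) :
    EvMean.{u} (fun T => k * F T) (k * c) := by
  obtain ⟨K, hK⟩ := h
  exact ⟨K, fun Ω _ P _ S lam hS hl => (hK Ω P S lam hS hl).const_mul k⟩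

theorem EvMean.const (h : ∀ T, F T ≤ c) : EvMean.{u} F c :=
  ⟨0, fun _ _ _ _ _ _ _ _ => UB.const (Eventually.of_forall fun _ => h _)⟩

theorem EvZero.add (h : EvZero.{u} F) (h' : EvZero.{u} F') : EvZero.{u} (fun T => F T + F' T) := by
  intro ε hε
  have h1 := (h (ε / 2) (half_pos hε)).add (h' (ε / 2) (half_pos hε))
  refine h1.mono (fun _ => le_rfl) (le_of_eq ?_)
  rw [← ENNReal.ofReal_add (by positivity) (by positivity), add_halves]

theorem EvZero.const_mul (h : EvZero.{u} F) {k : ℝ≥0∞} (hk : k ≠ ⊤) :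
    EvZero.{u} (fun T => k * F T) := by
  intro ε hε
  have h1 := (h (ε / (k.toReal + 1)) (by positivity)).const_mul k
  refine h1.mono (fun _ => le_rfl) ?_
  nth_rw 1 [← ENNReal.ofReal_toReal hk]
  rw [← ENNReal.ofReal_mul ENNReal.toReal_nonneg]
  apply ENNReal.ofReal_le_ofReal
  rw [mul_div_assoc', div_le_iff₀ (by positivity)]
  nlinarith [ENNReal.toReal_nonneg (a := k)]

theorem EvZero.mono (h : EvZero.{u} F) (hF : ∀ T, F' T ≤ F T) : EvZero.{u} F' :=
  fun ε hε => (h ε hε).mono hF le_rfl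

end

open Classical in
/-- The energy of a bounded set on an event of small probability. -/
theorem ev_bad {A : Set Pt → Prop} (hA : Ev.{u} A) {τ : ℂ} {κ : ℝ} {Θ : Dt → ℂ}
    (hΘ : Wt τ κ Θ) {Q : Set ℂ} {x : ℂ} {r : ℝ} (hQ : Q ⊆ closedBall x r) (hr : 0 < r) :
    EvZero.{u} (fun T => if A T then 0 else EQ (pts T) Q Θ) := by
  intro ε hε
  have hCM := H291.CM_nonneg 2 3
  -- the parameters
  set b : ℝ := r ^ 2 * (911250 * κ ^ 4 * H291.CM 2 3) with hb
  have hb0 : 0 ≤ b := by positivity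
  set t : ℝ := ε / (2 * (b + 1)) with ht
  have ht0 : 0 < t := by positivity
  obtain ⟨K, hK⟩ := hA (ε * t / (2 * r ^ 2)) (by positivity)
  refine ⟨max K (1 / r ^ 2), fun Ω _ P _ S lam hS hl => ?_⟩
  have hlr : (1 / r ^ 2 : ℝ) ≤ lam := (le_max_right _ _).trans hl
  have hlam : (0 : ℝ) < lam := lt_of_lt_of_le (by positivity) hlr
  set a : ℝ := (Real.sqrt lam)⁻¹ with ha
  have ha0 : 0 < a := by positivity
  have hla : lam * a ^ 2 = 1 := by
    rw [ha, inv_pow, Real.sq_sqrt hlam.le, mul_inv_cancel₀ hlam.ne']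
  have har : a ≤ r := by
    have h1 : a ^ 2 ≤ r ^ 2 := by
      have h2 : a ^ 2 = 1 / lam := by rw [eq_div_iff hlam.ne', mul_comm, hla]
      rw [h2, div_le_iff₀ hlam]
      have h3 := hlr
      rw [div_le_iff₀ (by positivity)] at h3
      linarith
    exact le_of_sq_le_sq h1 hr.le
  have hbad := hK Ω P S lam hS ((le_max_left _ _).trans hl)
  obtain ⟨B, hAB, hBm, hPB⟩ := exists_measurable_superset P {ω | ¬ A (S ω)}
  have h1 := H291.lint_eqMaj_restrict (P := P) hS ha0 hla κ x har ht0 hBm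
  refine ⟨B.indicator (H291.eqMaj S κ a x r), (H291.measurable_eqMaj hS κ a x r).indicator hBm,
    ?_, ?_⟩
  · filter_upwards [H291.ae_EQ_le (P := P) hS ha0 hla] with ω hω
    by_cases h2 : A (S ω)
    · rw [if_pos h2]; exact bot_le
    · rw [if_neg h2, indicator_of_mem (hAB h2)]
      exact hω x r Q τ κ Θ hQ hΘ
  · rw [lintegral_indicator hBm]
    refine h1.trans ?_
    rw [hPB]
    refine (add_le_add le_rfl (mul_le_mul' le_rfl hbad)).trans ?_
    rw [← ENNReal.ofReal_mul (by positivity), ← ENNReal.ofReal_add (by positivity) (by positivity)]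
    apply ENNReal.ofReal_le_ofReal
    have e1 : r ^ 2 * (911250 * t * κ ^ 4 * H291.CM 2 3) = t * b := by rw [hb]; ring
    have e2 : r ^ 2 * t⁻¹ * (ε * t / (2 * r ^ 2)) = ε / 2 := by
      field_simp
    have e3 : t * b ≤ ε / 2 := by
      rw [ht, div_mul_eq_mul_div, div_le_div_iff₀ (by positivity) (by positivity)]
      nlinarith
    rw [e1, e2]
    linarith

end Vale.Agent.P148.R2.H566
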