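import Vale.Agent.P148.R2.H566.Omega
import Vale.Agent.P148.R2.H184.PC4
import Vale.Agent.P148.R2.H400.Flip6

/-!
# The middle assembly, second level (P148, row OMEGA)

World 0 with a finite family of arcs `Arc i` (sets of darts leaving the frozen vertex). The classes
which meet the unit square and are not local in it are of three kinds: plane classes (`H184.PW`),
captured classes `CapC` (through the frozen vertex, facing an arc in which they do not start) and
the others, `SmC` (small footprint).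
-/

set_option linter.unusedSectionVars false

open MeasureTheory Set Metric Filter ProbabilityTheory Topology
open scoped ENNReal NNReal

namespace Vale.Agent.P148.R2.H566

open H592 H184 H203 H144 H400 _root_.P148 _root_.P148.H729
open Vale.Agent.P148.R2.H219 (tau)

universe u

namespace W0

variable (w : W0) {κ : Type*}

/-- The class of `d` meets `A`. -/
def Mt (A : Set ℂ) (σ : w.V → Bool) (d : w.D) : Prop := ∃ r, w.T.Rel σ d r ∧ w.Lo A r

/-- The class of `d` has a first dart `d₀`, which starts an excursion from the frozen vertex with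
property `R`. -/
def Exc (R : (w.V → Bool) → w.D → Prop) (σ : w.V → Bool) (d : w.D) : Prop :=
  ∃ d₀, w.T.Rel σ d d₀ ∧ w.T.src d₀ = w.O ∧ Start w.T σ d₀ ∧ R σ d₀

/-- The excursion of `d₀` faces an arc in which it does not start. -/
def Cpt (Arc : κ → Set w.D) (σ : w.V → Bool) (d₀ : w.D) : Prop :=
  ∃ i, Facing w.T (Arc i) σ d₀ ∧ d₀ ∉ Arc i

/-- Captured classes. -/
def CapC (A : Set ℂ) (Arc : κ → Set w.D) (σ : w.V → Bool) (d : w.D) : Prop :=
  w.Mt A σ d ∧ w.Exc (w.Cpt Arc) σ d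

/-- Classes of small footprint. -/
def SmC (A : Set ℂ) (Arc : κ → Set w.D) (σ : w.V → Bool) (d : w.D) : Prop :=
  w.Mt A σ d ∧ w.Exc (fun σ d => ¬ w.Cpt Arc σ d) σ d

variable {w}

theorem mt_sat {A : Set ℂ} {σ : w.V → Bool} : Sat w.T σ (w.Mt A σ) := by
  rintro d e hr ⟨r, h1, h2⟩
  exact ⟨r, w.T.rel_trans (w.T.rel_symm hr) h1, h2⟩

theorem exc_sat {R : (w.V → Bool) → w.D → Prop} {σ : w.V → Bool} :
    Sat w.T σ (w.Exc R σ) := by
  rintro d e hr ⟨r, h1, h2⟩
  exact ⟨r, w.T.rel_trans (w.T.rel_symm hr) h1, h2⟩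

theorem capC_sat {A : Set ℂ} {Arc : κ → Set w.D} {σ : w.V → Bool} :
    Sat w.T σ (w.CapC A Arc σ) := fun d e hr h => ⟨mt_sat d e hr h.1, exc_sat d e hr h.2⟩

theorem smC_sat {A : Set ℂ} {Arc : κ → Set w.D} {σ : w.V → Bool} :
    Sat w.T σ (w.SmC A Arc σ) := fun d e hr h => ⟨mt_sat d e hr h.1, exc_sat d e hr h.2⟩

/-- A member with a free corner is not a loop at the frozen vertex. -/
theorem lo_apex {A : Set ℂ} (hA : ∀ x ∈ w.X, x ∈ A → x ∉ w.B) {d : w.D} (h : w.Lo A d) :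
    w.T.apex d ≠ w.T.src d := by
  have hg : w.T.Good d := LF.good w.hull w.π w.fib (w.faith hA) h
  exact hg.2.2

/-- The three kinds cover. -/
theorem cover {A : Set ℂ} (hA : ∀ x ∈ w.X, x ∈ A → x ∉ w.B) (Arc : κ → Set w.D)
    {σ : w.V → Bool} {d : w.D} (hd : w.Lo A d) (hm : w.T.Mi σ d) :
    w.Lc A σ d ∨ (PW w A σ d ∨ w.CapC A Arc σ d) ∨ w.SmC A Arc σ d := by
  by_cases h1 : w.Lc A σ d
  · exact Or.inl h1
  right
  have hr : w.T.Rel σ d d := w.T.rel_refl hm
  have hM : w.Mt A σ d := ⟨d, hr, hd⟩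
  by_cases h2 : H910.Thr w.T w.O σ d
  · obtain ⟨e, h3, h4⟩ := h2
    have hst : Start w.T σ e :=
      ⟨h3.2.1, (w.T.good_of_rel w.planar h3 (lo_apex hA hd)).2.2⟩
    by_cases h5 : w.Cpt Arc σ e
    · exact Or.inl (Or.inr ⟨hM, e, h3, h4, hst, h5⟩)
    · exact Or.inr ⟨hM, e, h3, h4, hst, h5⟩
  · exact Or.inl (Or.inl ⟨⟨d, hr, hd, h1⟩, h2⟩)

/-- Subadditivity of the energy. -/
theorem en_or {S S' : (w.V → Bool) → w.D → Prop} (h : ∀ σ, Sat w.T σ (S σ))
    (h' : ∀ σ, Sat w.T σ (S' σ)) (Φ : w.D → ℂ) :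
    w.En (fun σ d => S σ d ∨ S' σ d) Φ ≤ w.En S Φ + w.En S' Φ := by
  classical
  unfold En
  rw [← mul_add, ← Finset.sum_add_distrib]
  gcongr with σ
  rw [← ENNReal.ofReal_add (tot_nonneg _ σ _) (tot_nonneg _ σ _)]
  apply ENNReal.ofReal_le_ofReal
  have h1 := (h σ).tot_split (rs (fun d => S σ d ∨ S' σ d) Φ)
  have h2 : rs (S σ) (rs (fun d => S σ d ∨ S' σ d) Φ) = rs (S σ) Φ := by
    funext d; unfold rs
    by_cases x : S σ d <;> simp [x]
  have h3 : tot w.T σ (rs (fun d => ¬ S σ d) (rs (fun d => S σ d ∨ S' σ d) Φ)) ≤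
      tot w.T σ (rs (S' σ) Φ) := by
    have e1 : rs (fun d => ¬ S σ d) (rs (fun d => S σ d ∨ S' σ d) Φ) =
        rs (fun d => ¬ S σ d ∧ S' σ d) Φ := by
      funext d; unfold rs
      by_cases x : S σ d <;> by_cases y : S' σ d <;> simp [x, y]
    rw [e1]
    exact tot_mono (sat_and (h σ).not (h' σ)) Φ fun d hd => hd.2
  rw [h2] at h1
  linarith

end W0

/-- A scene together with arcs in each of its worlds. -/
structure AScene (κ : Type) extends Scene where
  Arc : ∀ i, κ → Set (w i).D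

namespace AScene

variable {κ : Type} (s : AScene κ)

/-- The plane classes. -/
def pcl : s.toScene.Cls where
  S i := PW (s.w i) Asq
  sat i σ := pw_sat (s.w i) Asq σ

/-- The captured classes. -/
def ccl : s.toScene.Cls where
  S i := (s.w i).CapC Asq (s.Arc i)
  sat _ _ := W0.capC_sat

/-- The classes of small footprint. -/
def scl : s.toScene.Cls where
  S i := (s.w i).SmC Asq (s.Arc i)
  sat _ _ := W0.smC_sat

/-- Plane or captured. -/
def pcc : s.toScene.Cls where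
  S i σ d := PW (s.w i) Asq σ d ∨ (s.w i).CapC Asq (s.Arc i) σ d
  sat i σ d e hr h := h.imp (pw_sat (s.w i) Asq σ d e hr) (W0.capC_sat d e hr)

theorem cover {T : Set Pt} (h : s.toScene.OK T) : s.toScene.Cover s.pcc s.scl :=
  fun i hp _ _ hd hm => W0.cover (h.free i hp) (s.Arc i) hd hm

theorem pcc_le (Θ : Dt → ℂ) : s.toScene.mn s.pcc Θ ≤ s.toScene.mn s.pcl Θ + s.toScene.mn s.ccl Θ := by
  unfold Scene.mn
  rw [← Finset.sum_add_distrib]
  refine Finset.sum_le_sum fun i _ => ?_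
  rw [← mul_add]
  gcongr
  exact W0.en_or (s.pcl.sat i) (s.ccl.sat i) _

end AScene

/-- **Second level of the middle assembly.** `N` = number of arcs (mesh of the footprints), `M` =
number of cells. Quantifiers: `N` first, then `M`, then the intensity. -/
theorem meu_of_rows2 {τ : ℂ} {κ₀ : ℝ} {Θ : Dt → ℂ} (hΘ : Wt τ κ₀ Θ)
    (κ : ℕ → Type) (sc : ∀ N : ℕ, ℕ → Set Pt → AScene (κ N))
    (ok : ∀ N, ∀ᶠ M in atTop, Ev.{u} fun T => (sc N M T).toScene.OK T)
    {C : ℝ} (hC : 0 ≤ C)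
    (tot : ∀ N, ∀ᶠ M in atTop, Ev.{u} fun T => (sc N M T).mq Θ ≤ ENNReal.ofReal C)
    (sf : ∀ ε : ℝ, 0 < ε → ∃ N, ∀ᶠ M in atTop, Ev.{u} fun T =>
      (sc N M T).mnA (sc N M T).scl Θ ≤ ENNReal.ofReal ε)
    (pc : ∀ N, ∀ᶠ M in atTop, ∃ G : Set Pt → Prop, Ev.{u} G ∧
      EvZero.{u} fun T => ⨆ _ : G T, (sc N M T).mn (sc N M T).pcl Θ)
    (fl : ∀ ε : ℝ, 0 < ε → ∀ N, ∀ᶠ M in atTop, ∃ G : Set Pt → Prop, Ev.{u} G ∧
      EvMean.{u} (fun T => ⨆ _ : G T, (sc N M T).mn (sc N M T).ccl Θ) (ENNReal.ofReal ε)) :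
    MEU.{u} x0 Θ := by
  refine meu_of_rows1 hΘ hC fun ε hε => ?_
  obtain ⟨N, hN⟩ := sf ε hε
  obtain ⟨M, h1, h2, h3, ⟨G, hG, h4⟩, G', hG', h5⟩ :=
    ((ok N).and ((tot N).and (hN.and ((pc N).and (fl (ε / 2) (half_pos hε) N))))).exists
  refine ⟨{
    sc := fun T => (sc N M T).toScene
    G := fun T => (sc N M T).toScene.OK T ∧ (sc N M T).mq Θ ≤ ENNReal.ofReal C ∧
      (sc N M T).mnA (sc N M T).scl Θ ≤ ENNReal.ofReal ε ∧ G T ∧ G' T
    ev := h1.and (h2.and (h3.and (hG.and hG')))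
    ok := fun T hT => hT.1
    S₁ := fun T => (sc N M T).pcc
    S₂ := fun T => (sc N M T).scl
    cover := fun T hT => (sc N M T).cover hT.1
    tot := fun T hT => hT.2.1
    small := fun T hT => hT.2.2.1
    mean := ?_ }⟩
  refine ((h4 (ε / 2) (half_pos hε)).add h5).mono (fun T => ?_) ?_
  · refine iSup_le fun hT => ?_
    rw [iSup_pos hT.2.2.2.1, iSup_pos hT.2.2.2.2]
    exact (sc N M T).pcc_le Θ
  · rw [← ENNReal.ofReal_add (by positivity) (by positivity), add_halves]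

end Vale.Agent.P148.R2.H566
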