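import Vale.Agent.P148.R2.F.Pre
import Vale.Agent.P148.R2.H953.Cal8
import Vale.Agent.P148.R2.H400.RowWin

/-!
# P148: the missing-energy bound

`meu` : `MEU` for the weight of the observable, from the seven rows of the scene of the comb (`F.Pre`),
the calibration `H953.cal8` and the row of the windows `H400.rowWin`.
-/

open Filter

namespace Vale.Agent.P148.R2.H566

universe u

theorem tau_im_pos : 0 < H219.tau.im := by
  have h : H219.tau.im = √3 / 2 := rfl
  rw [h]
  positivity

/-- **The missing-energy bound.** -/
theorem meu : H144.MEU.{u} x0 (H184.th H219.tau) := by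
  have hΘ := H184.wt_th F.Dom.tau_root
  obtain ⟨κ, C₁, hκ, hC₁, hW⟩ := H953.cal8.{u} hΘ tau_im_pos
  exact F.meu_of_cal_win hκ hC₁ hW (H400.rowWin hΘ)

end Vale.Agent.P148.R2.H566
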