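import Vale.Agent.P148.R2.H566.Omega3
import Vale.Agent.P148.R2.H598.Lln4

/-!
# The middle assembly, part 4 (P148, row OMEGA): the row (lln)

`mxv M v` : the largest square of a sum of consecutive sections. `lln_row` : its mean is small, from
the law of large numbers of the two levels (`H598.lln_UB`) and the calibration `SlopeZero`.
-/

set_option linter.unusedSectionVars false

open MeasureTheory Set Metric Filter ProbabilityTheory Topology
open scoped ENNReal NNReal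

namespace Vale.Agent.P148.R2.H566

open H592 H184 H203 H144 H504 H598 _root_.P148 _root_.P148.H729
open Vale.Agent.P148.R2.N (ms nc gateC)

universe u

/-- The largest square of a partial sum. -/
noncomputable def mxv (M : ℕ) (v : ℕ → ℂ) : ℝ≥0∞ :=
  ⨆ (i : ℕ) (_ : i ≤ nc M) (j : ℕ) (_ : j ≤ nc M), ENNReal.ofReal (‖arcSum (nc M) v i j‖ ^ 2)

theorem le_mxv {M : ℕ} (v : ℕ → ℂ) {i j : ℕ} (hi : i ≤ nc M) (hj : j ≤ nc M) :
    ENNReal.ofReal (‖arcSum (nc M) v i j‖ ^ 2) ≤ mxv M v := by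
  unfold mxv
  exact le_iSup₂_of_le i hi (le_iSup₂_of_le j hj le_rfl)

theorem mxv_le {M : ℕ} (hM : 0 < M) (c : ℂ) (v : ℕ → ℂ) :
    mxv M v ≤ 72 * ENNReal.ofReal (‖c‖ ^ 2) + 2 * dv M c v := by
  unfold mxv
  exact iSup₂_le fun i hi => iSup₂_le fun j hj => arcSum_sq_le' hM c v hi hj

/-- **Calibration**: the mean drift of a section tends to zero: first the number of cells is large,
then the intensity. -/
def SlopeZero (q : ℕ) (m : ℕ → ℕ → Set Pt → ℂ) : Prop :=
  ∀ ε : ℝ, 0 < ε → ∀ᶠ M in atTop, ∃ K : ℝ, ∀ (Ω : Type u) [MeasurableSpace Ω] (P : Measure Ω)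
    [IsProbabilityMeasure P] (S : Ω → Set Pt) (lam : ℝ≥0), IsColouredPoisson P S lam →
    K ≤ lam → ‖slope P S M q (m M)‖ ≤ ε

/-- **The row (lln)**. -/
theorem lln_row {q r : ℕ} {R K : ℝ} (hK : 0 ≤ K) (hR : 4 * R ≤ r + 1)
    {m : ℕ → ℕ → Set Pt → ℂ} (hm : ∀ᶠ M in atTop, Means M q R K (m M))
    (hs : SlopeZero.{u} q m) (α : ℕ → Set Pt → Type) [∀ M T, Fintype (α M T)]
    (w : ∀ M T, α M T → ℝ) (v : ∀ M T, ℕ → α M T → ℂ) (G : ℕ → Set Pt → Prop)
    (hA : ∀ᶠ M in atTop, ∀ T, G M T → Quen M r K (w M T) (v M T) (fun k => m M k T))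
    {ε : ℝ} (hε : 0 < ε) :
    ∀ᶠ M in atTop, EvMean.{u} (fun T => ⨆ _ : G M T, ∑ a, ENNReal.ofReal (w M T a) *
      mxv M (fun k => v M T k a)) (ENNReal.ofReal ε) := by
  set η : ℝ := min 1 (ε / 288) with hη
  have hη0 : 0 < η := lt_min one_pos (by positivity)
  have he : ∀ᶠ M in atTop, err (cN5 K r q) M < ε / 4 :=
    (tendsto_err (cN5 K r q)).eventually (gt_mem_nhds (by positivity))
  filter_upwards [hm, hs η hη0, hA, he, eventually_gt_atTop 0] with M h1 ⟨K0, h2⟩ h3 h4 hM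
  refine ⟨K0, fun Ω _ P _ S lam hS hl => ?_⟩
  have h5 := lln_UB hS h1 hM hK hR (fun ω => w M (S ω)) (fun ω => v M (S ω)) {ω | G M (S ω)}
    (fun ω hω => h3 _ hω)
  set c : ℂ := slope P S M q (m M) with hc
  have hcη : ‖c‖ ≤ η := h2 Ω P S lam hS hl
  have h6 : UB P (fun _ : Ω => ENNReal.ofReal (72 * ‖c‖ ^ 2))
    (ENNReal.ofReal (72 * ‖c‖ ^ 2)) := UB.const (Eventually.of_forall fun _ => le_rfl)
  refine (h6.add (h5.const_mul 2)).mono (Eventually.of_forall fun ω => ?_) ?_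
  · refine iSup_le fun hG => ?_
    have hG' : ω ∈ {ω | G M (S ω)} := hG
    rw [iSup_pos hG', Finset.mul_sum]
    have e1 : ENNReal.ofReal (72 * ‖c‖ ^ 2) =
        ∑ a, ENNReal.ofReal (w M (S ω) a) * (72 * ENNReal.ofReal (‖c‖ ^ 2)) := by
      rw [← Finset.sum_mul, ← ENNReal.ofReal_sum_of_nonneg fun a _ => (h3 _ hG).w0 a,
        (h3 _ hG).w1, ENNReal.ofReal_one, one_mul, ENNReal.ofReal_mul (by norm_num)]
      norm_num
    rw [e1, ← Finset.sum_add_distrib]
    refine Finset.sum_le_sum fun a _ => ?_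
    refine (mul_le_mul' le_rfl (mxv_le hM c _)).trans (le_of_eq ?_)
    ring
  · have e2 : (2 : ℝ≥0∞) = ENNReal.ofReal 2 := by norm_num
    rw [e2, ← ENNReal.ofReal_mul (by norm_num)]
    refine (add_le_add le_rfl (ENNReal.ofReal_le_ofReal
      (mul_le_mul_of_nonneg_left h4.le (by norm_num)))).trans ?_
    rw [← ENNReal.ofReal_add (by positivity) (by positivity)]
    apply ENNReal.ofReal_le_ofReal
    have h7 : ‖c‖ ^ 2 ≤ ε / 288 := by
      have h8 : η ≤ 1 := min_le_left _ _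
      have h9 : η ≤ ε / 288 := min_le_right _ _
      have h10 := norm_nonneg c
      nlinarith
    linarith

end Vale.Agent.P148.R2.H566
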